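import Vale.Agent.P352.NF.MainB
import Vale.Agent.P352.NG.Fin
import Vale.Agent.P352.N86.Form

open MeasureTheory Filter Topology

namespace Vale.Agent.Results.P352.NullMoments

open Vale.Agent.P352.GF Vale.Agent.P352.H246 Vale.Agent.P352.H496 Vale.Agent.P352.H755
open Vale.Agent.P352.H15 Vale.Agent.P352.H846 Vale.Agent.P352.H121 Vale.Agent.P352.N86
open Vale.Agent.P352
open UniformSpace (Completion)

/-- **Second moments of the stress tensor on null planes imply conformal invariance.**

Let `T` be the stress tensor and `J` a virial current of the theory `Q`.

(1) Suppose that the Poincaré charges of `T` that preserve the foliation by null hyperplanes exist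
as integrals over these hyperplanes, and that the second moments `K a` of `T_aa` exist on them, as
weakly continuous operators on `D`. Then `Q` is conformally invariant: a scalar field of dimension
two, local relative to any choice of local fields, improves `T` to a traceless stress tensor whose
conformal charges act on all fields as infinitesimal conformal transformations. The operators
`K a` are special conformal generators, if the vacuum is cyclic for the tensor fields.

(2) If also the charges of all similitudes exist on null hyperplanes, and there is no flux at
infinity, then the on-shell dilaton constraint holds: the trace of `T` vanishes when it is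
integrated over null hyperplanes. It holds for `J` as well, if the vacuum is cyclic for the tensor
fields.

(3) More generally, any symmetric operators `K a`, `a` null, on `D` that transform under the
similitudes which preserve the hyperplane `a·x = 0` like special conformal generators, and whose
commutators with `T` and `J` are local with respect to this hyperplane, imply conformal
invariance, if `T` generates the Poincaré transformations. -/
theorem result {D : Type*} [NormedAddCommGroup D] [InnerProductSpace ℂ D] (Q : Theory D)
    (T : Ix → Ix → Fld D) (hT : Q.IsStress T) (J : Ix → Fld D) (hJ : IsVirial Q T J)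
    (A : (V → V) → D → D) (K : V → D → D) :
    (NF.NullMom Q T A K → ConfInv Q T ∧ (TGen Q → ConfGen Q A K)) ∧
    (NullCharges Q T J A K → ConfInv Q T ∧ TrNull T ∧
      (∀ l, IsPot Q T l → WeakLoc Q l) ∧ (TGen Q → OnShell Q T J)) ∧
    (NG.NullGen Q T J A K → ND.PCh Q T A → ConfInv Q T) := by
  refine ⟨fun h => ⟨NF.conf hT hJ h, fun hg => NF.confGen hT hJ h hg⟩, fun h => ?_,
    fun h hP => NG.confL hT hJ h hP⟩
  have hc := NF.conf hT hJ (NF.nm_of h)
  refine ⟨hc, NC.e13_trNull hT hJ h fun a x g ha => NF.xi_T hT hJ (NF.nm_of h) ha x g,
    fun l hl => ?_, fun hg =>
      ((main_v9 hT hJ).1 h).2.2.2.2.2.1.1 (NF.confGen hT hJ (NF.nm_of h) hg)⟩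
  obtain ⟨L, Q', he, hL, htr⟩ := impr_of_conf hc
  exact H746.herm_of_L he hL fun f hf => pot_of_L hT he hL htr hl hf

end Vale.Agent.Results.P352.NullMoments
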